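import Mathlib

namespace Vale.Agent.P110

open Finset Complex

/-- the polynomial with coefficient sequence `ε` evaluated at `z` -/
noncomputable def lit {n : ℕ} (ε : Fin n → ℝ) (z : ℂ) : ℂ := ∑ k : Fin n, (ε k : ℂ) * z ^ (k : ℕ)

private theorem geom_aux {M : ℕ} (hM : 0 < M) {ζ : ℂ} (hζ : IsPrimitiveRoot ζ M) {k m : ℕ}
    (hk : k < M) (hm : m < M) :
    ∑ j ∈ range M, (ζ ^ k * (ζ⁻¹) ^ m) ^ j = if k = m then (M : ℂ) else 0 := by
  have hζ0 : ζ ≠ 0 := hζ.ne_zero hM.ne'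
  split_ifs with h
  · subst h
    have : ζ ^ k * ζ⁻¹ ^ k = 1 := by rw [← mul_pow, mul_inv_cancel₀ hζ0, one_pow]
    rw [this]
    simp
  · have hu1 : ζ ^ k * (ζ⁻¹) ^ m ≠ 1 := by
      intro hu
      apply h
      apply hζ.pow_inj hk hm
      have h2 : ζ ^ k * ζ⁻¹ ^ m * ζ ^ m = ζ ^ m := by rw [hu, one_mul]
      rw [mul_assoc, ← mul_pow, inv_mul_cancel₀ hζ0, one_pow, mul_one] at h2
      exact h2
    have huM : (ζ ^ k * (ζ⁻¹) ^ m) ^ M = 1 := by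
      rw [mul_pow, ← pow_mul, ← pow_mul, mul_comm k M, mul_comm m M, pow_mul, pow_mul, inv_pow,
        hζ.pow_eq_one]
      simp
    have h3 := geom_sum_mul (ζ ^ k * (ζ⁻¹) ^ m) M
    rw [huM, sub_self] at h3
    exact (mul_eq_zero.1 h3).resolve_right (sub_ne_zero.2 hu1)

private theorem normSq_expand {a : ℕ} (α : Fin a → ℝ) (w : ℂ) :
    ((‖lit α w‖ ^ 2 : ℝ) : ℂ) = ∑ k : Fin a, ∑ l : Fin a,
      (α k : ℂ) * (α l : ℂ) * (w ^ (k : ℕ) * (starRingEnd ℂ w) ^ (l : ℕ)) := by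
  have h := Complex.mul_conj' (lit α w)
  push_cast
  rw [← h]
  unfold lit
  rw [map_sum, Finset.sum_mul_sum]
  refine Finset.sum_congr rfl fun k _ => Finset.sum_congr rfl fun l _ => ?_
  rw [map_mul, map_pow, Complex.conj_ofReal]
  ring

private theorem fourier {a M d : ℕ} (hM : 0 < M) (haM : a + d ≤ M) (α : Fin a → ℝ) (ζ : ℂ)
    (hζ : IsPrimitiveRoot ζ M) (z : ℂ) :
    ∑ j ∈ range M, ((‖lit α (ζ ^ j * z)‖ ^ 2 : ℝ) : ℂ) * (ζ⁻¹) ^ (j * d) =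
      M * ∑ k : Fin a, ∑ l : Fin a, if (k : ℕ) = l + d then
        (α k : ℂ) * α l * (z ^ (k : ℕ) * (starRingEnd ℂ z) ^ (l : ℕ)) else 0 := by
  have hn : ‖ζ‖ = 1 := hζ.norm'_eq_one hM.ne'
  have hc : starRingEnd ℂ ζ = ζ⁻¹ := (Complex.inv_eq_conj hn).symm
  have h1 : ∀ j ∈ range M, ((‖lit α (ζ ^ j * z)‖ ^ 2 : ℝ) : ℂ) * (ζ⁻¹) ^ (j * d) =
      ∑ k : Fin a, ∑ l : Fin a, (α k : ℂ) * α l * (z ^ (k : ℕ) * (starRingEnd ℂ z) ^ (l : ℕ)) *
        (ζ ^ (k : ℕ) * ζ⁻¹ ^ ((l : ℕ) + d)) ^ j := by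
    intro j _
    rw [normSq_expand, Finset.sum_mul]
    refine Finset.sum_congr rfl fun k _ => ?_
    rw [Finset.sum_mul]
    refine Finset.sum_congr rfl fun l _ => ?_
    rw [map_mul, map_pow, hc]
    generalize ζ⁻¹ = ξ
    ring
  rw [Finset.sum_congr rfl h1, Finset.sum_comm, Finset.mul_sum]
  refine Finset.sum_congr rfl fun k _ => ?_
  rw [Finset.sum_comm, Finset.mul_sum]
  refine Finset.sum_congr rfl fun l _ => ?_
  have hk := k.2
  have hl := l.2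
  rw [← Finset.mul_sum, geom_aux hM hζ (by omega) (by omega)]
  split_ifs <;> ring

private theorem sign_mul_self {x : ℝ} (h : x = 1 ∨ x = -1) : (x : ℂ) * x = 1 := by
  rcases h with h | h <;> simp [h]

/-- averaging `|A|^2` over the `a` points `ζ^j z` (`ζ` a primitive `a`-th root of unity, `|z| = 1`)
gives `a * a` for a sequence of `a` signs. -/
theorem sum_normSq_rotations {a : ℕ} (ha : 0 < a) (α : Fin a → ℝ) (hα : ∀ i, α i = 1 ∨ α i = -1)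
    (ζ : ℂ) (hζ : IsPrimitiveRoot ζ a) (z : ℂ) (hz : ‖z‖ = 1) :
    ∑ j ∈ range a, ‖lit α (ζ ^ j * z)‖ ^ 2 = (a : ℝ) * a := by
  have h := fourier (d := 0) ha (by omega) α ζ hζ z
  simp only [mul_zero, pow_zero, mul_one, add_zero] at h
  have h2 : ∑ k : Fin a, ∑ l : Fin a, (if (k : ℕ) = l then
      (α k : ℂ) * α l * (z ^ (k : ℕ) * (starRingEnd ℂ z) ^ (l : ℕ)) else 0) = a := by
    have h3 : ∀ k : Fin a, ∑ l : Fin a, (if (k : ℕ) = l then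
        (α k : ℂ) * α l * (z ^ (k : ℕ) * (starRingEnd ℂ z) ^ (l : ℕ)) else 0) = 1 := by
      intro k
      rw [Finset.sum_eq_single k]
      · rw [if_pos rfl, sign_mul_self (hα k), ← mul_pow, Complex.mul_conj', hz]
        simp
      · intro l _ hl
        rw [if_neg]
        intro h
        exact hl (Fin.ext h.symm)
      · intro h
        exact absurd (Finset.mem_univ k) h
    simp [h3]
  rw [h2] at h
  exact_mod_cast h

/-- a sign polynomial of length `a ≥ 2` is never perfectly flat: at some point of the unit circle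
`|A|^2` differs from `a` by at least `1`. -/
theorem exists_far {a : ℕ} (ha : 2 ≤ a) (α : Fin a → ℝ) (hα : ∀ i, α i = 1 ∨ α i = -1) :
    ∃ z : ℂ, ‖z‖ = 1 ∧ 1 ≤ |‖lit α z‖ ^ 2 - a| := by
  by_contra hcon
  push Not at hcon
  have hM : 0 < 2 * a := by omega
  obtain ⟨ω, hω⟩ : ∃ ω : ℂ, IsPrimitiveRoot ω (2 * a) :=
    ⟨_, Complex.isPrimitiveRoot_exp (2 * a) hM.ne'⟩
  have hn : ‖ω‖ = 1 := hω.norm'_eq_one hM.ne'
  have h := fourier (d := a - 1) hM (by omega) α ω hω 1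
  have h2 : ∑ k : Fin a, ∑ l : Fin a, (if (k : ℕ) = l + (a - 1) then
      (α k : ℂ) * α l * ((1 : ℂ) ^ (k : ℕ) * (starRingEnd ℂ 1) ^ (l : ℕ)) else 0)
      = (α ⟨a - 1, by omega⟩ : ℂ) * α ⟨0, by omega⟩ := by
    rw [Finset.sum_eq_single (⟨a - 1, by omega⟩ : Fin a)]
    · rw [Finset.sum_eq_single (⟨0, by omega⟩ : Fin a)]
      · simp
      · intro l _ hl
        rw [if_neg]
        intro h
        apply hl
        apply Fin.ext
        simp only at h ⊢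
        omega
      · intro h
        exact absurd (Finset.mem_univ _) h
    · intro k _ hk
      apply Finset.sum_eq_zero
      intro l _
      rw [if_neg]
      intro h
      apply hk
      apply Fin.ext
      have := k.2
      simp only
      omega
    · intro h
      exact absurd (Finset.mem_univ _) h
  rw [h2] at h
  have h3 : ∑ j ∈ range (2 * a), (a : ℂ) * ω⁻¹ ^ (j * (a - 1)) = 0 := by
    have h4 := geom_aux hM hω (k := 0) (m := a - 1) (by omega) (by omega)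
    rw [if_neg (by omega)] at h4
    rw [← Finset.mul_sum]
    have h5 : ∀ j ∈ range (2 * a), ω⁻¹ ^ (j * (a - 1)) = (ω ^ 0 * ω⁻¹ ^ (a - 1)) ^ j := by
      intro j _
      rw [pow_zero, one_mul, ← pow_mul, mul_comm]
    rw [Finset.sum_congr rfl h5, h4, mul_zero]
  have h6 : ∑ j ∈ range (2 * a), (((‖lit α (ω ^ j * 1)‖ ^ 2 - a : ℝ)) : ℂ) * ω⁻¹ ^ (j * (a - 1))
      = ((2 * a : ℕ) : ℂ) * ((α ⟨a - 1, by omega⟩ : ℂ) * α ⟨0, by omega⟩) := by
    rw [← h, ← sub_zero (∑ j ∈ range (2 * a), ((‖lit α (ω ^ j * 1)‖ ^ 2 : ℝ) : ℂ) * _), ← h3,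
      ← Finset.sum_sub_distrib]
    refine Finset.sum_congr rfl fun j _ => ?_
    push_cast
    ring
  have h7 : ‖∑ j ∈ range (2 * a),
      (((‖lit α (ω ^ j * 1)‖ ^ 2 - a : ℝ)) : ℂ) * ω⁻¹ ^ (j * (a - 1))‖ < ((2 * a : ℕ) : ℝ) := by
    calc _ ≤ ∑ j ∈ range (2 * a),
          ‖(((‖lit α (ω ^ j * 1)‖ ^ 2 - a : ℝ)) : ℂ) * ω⁻¹ ^ (j * (a - 1))‖ := norm_sum_le _ _
      _ < ∑ j ∈ range (2 * a), (1 : ℝ) := by
          apply Finset.sum_lt_sum_of_nonempty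
          · exact ⟨0, Finset.mem_range.2 hM⟩
          · intro j _
            rw [norm_mul, Complex.norm_real, norm_pow, norm_inv, hn, inv_one, one_pow, mul_one,
              Real.norm_eq_abs]
            apply hcon
            rw [mul_one, norm_pow, hn, one_pow]
      _ = ((2 * a : ℕ) : ℝ) := by simp
  rw [h6, norm_mul, norm_mul, Complex.norm_natCast, Complex.norm_real, Complex.norm_real] at h7
  have h8 : ∀ i, ‖α i‖ = 1 := by
    intro i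
    rcases hα i with h | h <;> simp [h]
  rw [h8, h8] at h7
  simp at h7

private theorem avg_bounds {a : ℕ} (ha : 0 < a) (α : Fin a → ℝ) (hα : ∀ i, α i = 1 ∨ α i = -1)
    (z : ℂ) (hz : ‖z‖ = 1) (F lo hi : ℝ)
    (h : ∀ w : ℂ, ‖w‖ = 1 → w ^ a = z ^ a → lo ≤ ‖lit α w‖ ^ 2 * F ∧ ‖lit α w‖ ^ 2 * F ≤ hi) :
    lo ≤ a * F ∧ a * F ≤ hi := by
  obtain ⟨ζ, hζ⟩ : ∃ ζ : ℂ, IsPrimitiveRoot ζ a := ⟨_, Complex.isPrimitiveRoot_exp a ha.ne'⟩
  have hn : ‖ζ‖ = 1 := hζ.norm'_eq_one ha.ne'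
  have hs := sum_normSq_rotations ha α hα ζ hζ z hz
  have hw : ∀ j : ℕ, ‖ζ ^ j * z‖ = 1 ∧ (ζ ^ j * z) ^ a = z ^ a := by
    intro j
    constructor
    · rw [norm_mul, norm_pow, hn, hz]
      simp
    · rw [mul_pow, ← pow_mul, mul_comm j a, pow_mul, hζ.pow_eq_one, one_pow, one_mul]
  have h1 : ∑ j ∈ range a, ‖lit α (ζ ^ j * z)‖ ^ 2 * F = a * (a * F) := by
    rw [← Finset.sum_mul, hs, mul_assoc]
  have h2 : (a : ℝ) * lo ≤ a * (a * F) := by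
    rw [← h1]
    calc (a : ℝ) * lo = ∑ j ∈ range a, lo := by simp
      _ ≤ _ := Finset.sum_le_sum fun j _ => (h _ (hw j).1 (hw j).2).1
  have h3 : a * (a * F) ≤ (a : ℝ) * hi := by
    rw [← h1]
    calc _ ≤ ∑ j ∈ range a, hi := Finset.sum_le_sum fun j _ => (h _ (hw j).1 (hw j).2).2
      _ = (a : ℝ) * hi := by simp
  have hapos : (0 : ℝ) < a := by exact_mod_cast ha
  exact ⟨le_of_mul_le_mul_left h2 hapos, le_of_mul_le_mul_left h3 hapos⟩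

private theorem sq_bounds {c x s : ℝ} (hc0 : 0 ≤ c) (hc1 : c < 1) (hs : 0 ≤ s) (hx : 0 ≤ x)
    (h : (1 - c) * Real.sqrt s ≤ x ∧ x ≤ (1 + c) * Real.sqrt s) :
    (1 - c) ^ 2 * s ≤ x ^ 2 ∧ x ^ 2 ≤ (1 + c) ^ 2 * s := by
  have h1 : (1 - c) ^ 2 * s = ((1 - c) * Real.sqrt s) ^ 2 := by
    rw [mul_pow, Real.sq_sqrt hs]
  have h2 : (1 + c) ^ 2 * s = ((1 + c) * Real.sqrt s) ^ 2 := by
    rw [mul_pow, Real.sq_sqrt hs]
  rw [h1, h2]
  constructor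
  · apply pow_le_pow_left₀ _ h.1
    exact mul_nonneg (by linarith) (Real.sqrt_nonneg _)
  · exact pow_le_pow_left₀ hx h.2 2

private theorem final_arith {a c : ℝ} (ha : 2 ≤ a) (hc1 : c < 1)
    (h : (a + 1) * (1 - c) ^ 2 ≤ a * (1 + c) ^ 2) : 1 + 1 / a ≤ ((1 + c) / (1 - c)) ^ 2 := by
  have h1 : 0 < 1 - c := by linarith
  have ha0 : 0 < a := by linarith
  rw [div_pow, le_div_iff₀ (by positivity)]
  have h2 : (1 + 1 / a) = (a + 1) / a := by field_simp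
  rw [h2, div_mul_eq_mul_div, div_le_iff₀ ha0]
  linarith

/-- Kronecker products, inner factor of length `a`: `P(z) = A(z) B(z^a)`. -/
theorem kronecker_inner {a b : ℕ} (ha : 2 ≤ a) (hb : 1 ≤ b) (α : Fin a → ℝ) (β : Fin b → ℝ)
    (hα : ∀ i, α i = 1 ∨ α i = -1) (hβ : ∀ i, β i = 1 ∨ β i = -1) (c : ℝ) (hc0 : 0 ≤ c)
    (hc1 : c < 1)
    (hflat : ∀ z : ℂ, ‖z‖ = 1 →
      (1 - c) * Real.sqrt (a * b) ≤ ‖lit α z * lit β (z ^ a)‖ ∧
      ‖lit α z * lit β (z ^ a)‖ ≤ (1 + c) * Real.sqrt (a * b)) :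
    1 + 1 / (a : ℝ) ≤ ((1 + c) / (1 - c)) ^ 2 := by
  have haR : (2 : ℝ) ≤ a := by exact_mod_cast ha
  have hbR : (1 : ℝ) ≤ b := by exact_mod_cast hb
  have hab : (0 : ℝ) ≤ a * b := by positivity
  have hsq : ∀ z : ℂ, ‖z‖ = 1 → (1 - c) ^ 2 * (a * b) ≤ ‖lit α z‖ ^ 2 * ‖lit β (z ^ a)‖ ^ 2 ∧
      ‖lit α z‖ ^ 2 * ‖lit β (z ^ a)‖ ^ 2 ≤ (1 + c) ^ 2 * (a * b) := by
    intro z hz
    have := sq_bounds hc0 hc1 hab (norm_nonneg _) (hflat z hz)
    rwa [norm_mul, mul_pow] at this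
  obtain ⟨z, hz, hfar⟩ := exists_far ha α hα
  have hav := avg_bounds (by omega) α hα z hz (‖lit β (z ^ a)‖ ^ 2) ((1 - c) ^ 2 * (a * b))
    ((1 + c) ^ 2 * (a * b)) (by
      intro w hw hwz
      rw [← hwz]
      exact hsq w hw)
  have hz2 := hsq z hz
  generalize ‖lit β (z ^ a)‖ ^ 2 = F at hav hz2
  generalize ‖lit α z‖ ^ 2 = X at hfar hz2
  have ha0 : (0 : ℝ) < a := by linarith
  have hb0 : (0 : ℝ) < b := by linarith
  have hF1 : (1 - c) ^ 2 * b ≤ F := by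
    have : (a : ℝ) * ((1 - c) ^ 2 * b) ≤ a * F := by linarith [hav.1]
    exact le_of_mul_le_mul_left this ha0
  have hF2 : F ≤ (1 + c) ^ 2 * b := by
    have : (a : ℝ) * F ≤ a * ((1 + c) ^ 2 * b) := by linarith [hav.2]
    exact le_of_mul_le_mul_left this ha0
  have hF0 : 0 ≤ F := le_trans (by positivity) hF1
  apply final_arith haR hc1
  rcases le_abs'.1 hfar with h | h
  · -- X ≤ a - 1
    have hX : X ≤ a - 1 := by linarith
    have h1 : X * F ≤ (a - 1) * ((1 + c) ^ 2 * b) :=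
      mul_le_mul hX hF2 hF0 (by linarith)
    have h2 : (b : ℝ) * (a * (1 - c) ^ 2) ≤ b * ((a - 1) * (1 + c) ^ 2) := by linarith [hz2.1]
    have h3 : a * (1 - c) ^ 2 ≤ (a - 1) * (1 + c) ^ 2 := le_of_mul_le_mul_left h2 hb0
    have h4 : (a : ℝ) * ((a + 1) * (1 - c) ^ 2) ≤ a * (a * (1 + c) ^ 2) := by
      have h5 : (a + 1) * (a * (1 - c) ^ 2) ≤ (a + 1) * ((a - 1) * (1 + c) ^ 2) :=
        mul_le_mul_of_nonneg_left h3 (by linarith)
      have h6 : 0 ≤ (1 + c) ^ 2 := by positivity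
      nlinarith
    exact le_of_mul_le_mul_left h4 ha0
  · have hX : a + 1 ≤ X := by linarith
    have h1 : (a + 1) * ((1 - c) ^ 2 * b) ≤ X * F :=
      mul_le_mul hX hF1 (by positivity) (by linarith)
    have h2 : (b : ℝ) * ((a + 1) * (1 - c) ^ 2) ≤ b * (a * (1 + c) ^ 2) := by linarith [hz2.2]
    exact le_of_mul_le_mul_left h2 hb0

/-- Kronecker products, outer factor of length `a`: `P(z) = B(z) A(z^b)`. -/
theorem kronecker_outer {a b : ℕ} (ha : 2 ≤ a) (hb : 1 ≤ b) (α : Fin a → ℝ) (β : Fin b → ℝ)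
    (hα : ∀ i, α i = 1 ∨ α i = -1) (hβ : ∀ i, β i = 1 ∨ β i = -1) (c : ℝ) (hc0 : 0 ≤ c)
    (hc1 : c < 1)
    (hflat : ∀ z : ℂ, ‖z‖ = 1 →
      (1 - c) * Real.sqrt (a * b) ≤ ‖lit β z * lit α (z ^ b)‖ ∧
      ‖lit β z * lit α (z ^ b)‖ ≤ (1 + c) * Real.sqrt (a * b)) :
    1 + 1 / (a : ℝ) ≤ ((1 + c) / (1 - c)) ^ 2 := by
  have haR : (2 : ℝ) ≤ a := by exact_mod_cast ha
  have hbR : (1 : ℝ) ≤ b := by exact_mod_cast hb
  have hab : (0 : ℝ) ≤ a * b := by positivity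
  have hsq : ∀ z : ℂ, ‖z‖ = 1 → (1 - c) ^ 2 * (a * b) ≤ ‖lit β z‖ ^ 2 * ‖lit α (z ^ b)‖ ^ 2 ∧
      ‖lit β z‖ ^ 2 * ‖lit α (z ^ b)‖ ^ 2 ≤ (1 + c) ^ 2 * (a * b) := by
    intro z hz
    have := sq_bounds hc0 hc1 hab (norm_nonneg _) (hflat z hz)
    rwa [norm_mul, mul_pow] at this
  obtain ⟨w, hw, hfar⟩ := exists_far ha α hα
  obtain ⟨z, hzw⟩ := IsAlgClosed.exists_pow_nat_eq w (show 0 < b by omega)
  have hz : ‖z‖ = 1 := by
    have h1 : ‖z‖ ^ b = 1 := by rw [← norm_pow, hzw, hw]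
    exact (pow_eq_one_iff_of_nonneg (norm_nonneg z) (by omega)).1 h1
  have hav := avg_bounds (by omega) β hβ z hz (‖lit α (z ^ b)‖ ^ 2) ((1 - c) ^ 2 * (a * b))
    ((1 + c) ^ 2 * (a * b)) (by
      intro v hv hvz
      rw [← hvz]
      exact hsq v hv)
  rw [hzw] at hav
  generalize ‖lit α w‖ ^ 2 = X at hfar hav
  have ha0 : (0 : ℝ) < a := by linarith
  have hb0 : (0 : ℝ) < b := by linarith
  have hX1 : (1 - c) ^ 2 * a ≤ X := by
    have : (b : ℝ) * ((1 - c) ^ 2 * a) ≤ b * X := by linarith [hav.1]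
    exact le_of_mul_le_mul_left this hb0
  have hX2 : X ≤ (1 + c) ^ 2 * a := by
    have : (b : ℝ) * X ≤ b * ((1 + c) ^ 2 * a) := by linarith [hav.2]
    exact le_of_mul_le_mul_left this hb0
  apply final_arith haR hc1
  have hc2 : (1 - c) ^ 2 ≤ 1 := by
    have : 0 ≤ 1 - c := by linarith
    nlinarith
  have hc3 : 1 ≤ (1 + c) ^ 2 := by nlinarith
  rcases le_abs'.1 hfar with h | h
  · have hX : (1 - c) ^ 2 * a ≤ a - 1 := by linarith
    have h4 : (a : ℝ) * ((a + 1) * (1 - c) ^ 2) ≤ a * (a * (1 + c) ^ 2) := by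
      have h5 : (a + 1) * ((1 - c) ^ 2 * a) ≤ (a + 1) * ((a : ℝ) - 1) :=
        mul_le_mul_of_nonneg_left hX (by linarith)
      have h6 : (a : ℝ) * a * 1 ≤ a * a * (1 + c) ^ 2 :=
        mul_le_mul_of_nonneg_left hc3 (by positivity)
      nlinarith
    exact le_of_mul_le_mul_left h4 ha0
  · have hX : (a : ℝ) + 1 ≤ (1 + c) ^ 2 * a := by linarith
    have h5 : ((a : ℝ) + 1) * (1 - c) ^ 2 ≤ (a + 1) * 1 :=
      mul_le_mul_of_nonneg_left hc2 (by linarith)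
    linarith

end Vale.Agent.P110
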